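import Vale.Agent.P258.R2.H863.SpecEx

set_option linter.all false

/-! The criterion with `S₅` applies to a knot with 13 crossings and Alexander polynomial one. -/

namespace Vale.Agent.P258.R2.H891.Ex

open Vale.Agent.P258 Vale.Agent.P258.R2.H863

abbrev S5 := Equiv.Perm (Fin 5)

/-! ### Loops -/

def allN (p : ℕ → Bool) (n : ℕ) : Bool :=
  @Nat.rec (fun _ => Bool) true (fun m ih => and (p m) ih) n

theorem allN_spec (p : ℕ → Bool) (n : ℕ) (h : allN p n = true) : ∀ m < n, p m = true := by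
  induction n with
  | zero => intro m hm; omega
  | succ n ih =>
    have h' : (p n && allN p n) = true := h
    rw [Bool.and_eq_true] at h'
    intro m hm
    rcases Nat.lt_succ_iff_lt_or_eq.1 hm with h1 | h1
    · exact ih h'.2 m h1
    · rw [h1]; exact h'.1

def fr (n : ℕ) (k : ℕ → Bool) : Bool :=
  @Nat.rec (fun _ => Bool) (k 0) (fun m _ => k (Nat.succ m)) n

theorem fr_eq (n : ℕ) (k : ℕ → Bool) : fr n k = k n := by cases n <;> rfl

def search (N : ℕ) (t u : ℕ → ℕ → ℕ) (good : ℕ → ℕ → ℕ → Bool) : Bool :=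
  allN (fun x5 => fr (u 0 x5) fun x1 => allN (fun x6 => fr (t x1 x6) fun x2 => fr (u x2 0) fun x3 =>
    allN (fun x9 => fr (u x3 x9) fun x4 => fr (t x6 x4) fun x7 =>
      or (not (Nat.beq (t x4 x7) x5)) (fr (u x9 x6) fun x8 => fr (u x9 x5) fun x10 =>
        or (not (Nat.beq (t x7 x10) x8)) (fr (t x10 x8) fun x11 => fr (t x11 x1) fun x12 =>
          or (not (Nat.beq (u x5 x12) x6)) (or (not (Nat.beq (u x12 x2) 0)) (good x5 x6 x9))))) N)
        N) N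

theorem search_spec {N : ℕ} {t u : ℕ → ℕ → ℕ} {good : ℕ → ℕ → ℕ → Bool}
    (h : search N t u good = true) (x : Fin 13 → ℕ) (hx : ∀ i, x i < N) (h0 : x 0 = 0)
    (r0 : x 1 = u (x 0) (x 5)) (r1 : x 2 = t (x 1) (x 6)) (r2 : x 3 = u (x 2) (x 0))
    (r3 : x 4 = u (x 3) (x 9)) (r4 : x 5 = t (x 4) (x 7)) (r5 : x 6 = u (x 5) (x 12))
    (r6 : x 7 = t (x 6) (x 4)) (r7 : x 8 = t (x 7) (x 10)) (r8 : x 8 = u (x 9) (x 6))
    (r9 : x 10 = u (x 9) (x 5)) (r10 : x 11 = t (x 10) (x 8)) (r11 : x 12 = t (x 11) (x 1))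
    (r12 : x 0 = u (x 12) (x 2)) : good (x 5) (x 6) (x 9) = true := by
  unfold search at h
  have h1 := allN_spec _ _ h (x 5) (hx 5)
  simp only [fr_eq] at h1
  have h2 := allN_spec _ _ h1 (x 6) (hx 6)
  have h3 := allN_spec _ _ h2 (x 9) (hx 9)
  rw [h0] at r0 r2 r12
  simp only [← r0, ← r1, ← r2, ← r3, ← r6, ← r8, ← r9, ← r10, ← r11, ← r4, ← r5, ← r7, ← r12] at h3
  have hb : ∀ n : ℕ, Nat.beq n n = true := fun n => Nat.beq_refl n
  simpa [hb] using h3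

/-! ### The diagram -/

def nx (a : Fin 13) : Fin 13 := Fin.ofNat 13 (a.val + 1)

theorem isKnot : knot13.IsKnot := by
  have h : ∀ a b : Fin 13, ∃ i : Fin 13, nx^[(i : ℕ)] a = b := by decide +kernel
  intro a b
  obtain ⟨i, hi⟩ := h a b
  exact ⟨i, hi⟩

section rels

variable {G : Type} [Group G]

theorem relN {ρ : Fin knot13.n → G} (h : knot13.IsCol ρ) (a b k : Fin 13)
    (hn : @Eq (Fin 13) (knot13.next a) b) (hk : @Eq (Fin 13) (knot13.above a) k)
    (hs : knot13.sgn a = -1) : ρ b = ρ k * ρ a * (ρ k)⁻¹ := by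
  have h1 := h a
  rw [hs] at h1
  have h2 : knot13.next a = b := hn
  have h3 : knot13.above a = k := hk
  rw [h2, h3] at h1
  rw [h1]
  simp

theorem relP {ρ : Fin knot13.n → G} (h : knot13.IsCol ρ) (a b k : Fin 13)
    (hn : @Eq (Fin 13) (knot13.next a) b) (hk : @Eq (Fin 13) (knot13.above a) k)
    (hs : knot13.sgn a = 1) : ρ b = (ρ k)⁻¹ * ρ a * ρ k := by
  have h1 := h a
  rw [hs] at h1
  have h2 : knot13.next a = b := hn
  have h3 : knot13.above a = k := hk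
  rw [h2, h3] at h1
  rw [h1]
  simp

structure Rels (v : Fin 13 → G) : Prop where
  r0 : v 1 = v 5 * v 0 * (v 5)⁻¹
  r1 : v 2 = (v 6)⁻¹ * v 1 * v 6
  r2 : v 3 = v 0 * v 2 * (v 0)⁻¹
  r3 : v 4 = v 9 * v 3 * (v 9)⁻¹
  r4 : v 5 = (v 7)⁻¹ * v 4 * v 7
  r5 : v 6 = v 12 * v 5 * (v 12)⁻¹
  r6 : v 7 = (v 4)⁻¹ * v 6 * v 4
  r7 : v 8 = (v 10)⁻¹ * v 7 * v 10
  r8 : v 9 = (v 6)⁻¹ * v 8 * v 6
  r9 : v 10 = v 5 * v 9 * (v 5)⁻¹
  r10 : v 11 = (v 8)⁻¹ * v 10 * v 8
  r11 : v 12 = (v 1)⁻¹ * v 11 * v 1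
  r12 : v 0 = v 2 * v 12 * (v 2)⁻¹

theorem rels {ρ : Fin knot13.n → G} (h : knot13.IsCol ρ) : Rels (G := G) ρ where
  r0 := relN h 0 1 5 rfl rfl rfl
  r1 := relP h 1 2 6 rfl rfl rfl
  r2 := relN h 2 3 0 rfl rfl rfl
  r3 := relN h 3 4 9 rfl rfl rfl
  r4 := relP h 4 5 7 rfl rfl rfl
  r5 := relN h 5 6 12 rfl rfl rfl
  r6 := relP h 6 7 4 rfl rfl rfl
  r7 := relP h 7 8 10 rfl rfl rfl
  r8 := relP h 8 9 6 rfl rfl rfl
  r9 := relN h 9 10 5 rfl rfl rfl
  r10 := relP h 10 11 8 rfl rfl rfl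
  r11 := relP h 11 12 1 rfl rfl rfl
  r12 := relN h 12 0 2 rfl rfl rfl

theorem rels_ext {v w : Fin 13 → G} (hv : Rels v) (hw : Rels w) (h0 : v 0 = w 0) (h5 : v 5 = w 5)
    (h6 : v 6 = w 6) (h9 : v 9 = w 9) : v = w := by
  have h1 : v 1 = w 1 := by rw [hv.r0, hw.r0, h5, h0]
  have h2 : v 2 = w 2 := by rw [hv.r1, hw.r1, h6, h1]
  have h3 : v 3 = w 3 := by rw [hv.r2, hw.r2, h0, h2]
  have h4 : v 4 = w 4 := by rw [hv.r3, hw.r3, h9, h3]
  have h7 : v 7 = w 7 := by rw [hv.r6, hw.r6, h4, h6]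
  have h10 : v 10 = w 10 := by rw [hv.r9, hw.r9, h5, h9]
  have h8 : v 8 = w 8 := by rw [hv.r7, hw.r7, h10, h7]
  have h11 : v 11 = w 11 := by rw [hv.r10, hw.r10, h8, h10]
  have h12 : v 12 = w 12 := by rw [hv.r11, hw.r11, h1, h11]
  funext j
  fin_cases j <;> assumption

theorem all_of_conj {Q : G → Prop} (hQ : ∀ x y, Q x → Q (y * x * y⁻¹)) {ρ : Fin knot13.n → G}
    (h : knot13.IsCol ρ) (hk : Q (ρ arc0)) (b : Fin knot13.n) : Q (ρ b) := by
  obtain ⟨i, rfl⟩ := isKnot arc0 b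
  induction i with
  | zero => exact hk
  | succ i ih =>
    rw [Function.iterate_succ_apply']
    generalize knot13.next^[i] arc0 = a at ih
    rw [h a]
    have h1 : ρ (knot13.above a) ^ (-(knot13.sgn a : ℤ)) * ρ a *
        ρ (knot13.above a) ^ (knot13.sgn a : ℤ) = (ρ (knot13.above a) ^ (-(knot13.sgn a : ℤ))) *
          ρ a * (ρ (knot13.above a) ^ (-(knot13.sgn a : ℤ)))⁻¹ := by
      group
    rw [h1]
    exact hQ _ _ ih

end rels

/-- The codes of a colouring with `ρ 0 = P 0`. -/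
theorem coded {N : ℕ} [NeZero N] (P : Fin N → S5) (t u : ℕ → ℕ → ℕ)
    (hinj : ∀ a b : Fin N, P a = P b → a = b)
    (ht : ∀ a b : Fin N, t a b < N ∧ P (Fin.ofNat N (t a b)) = (P b)⁻¹ * P a * P b)
    (hu : ∀ a b : Fin N, u a b < N ∧ P (Fin.ofNat N (u a b)) = P b * P a * (P b)⁻¹)
    (good : ℕ → ℕ → ℕ → Bool) (hs : search N t u good = true) (v : Fin 13 → S5) (hv : Rels v)
    (x : Fin 13 → Fin N) (hx : ∀ j, P (x j) = v j) (h0 : x 0 = 0) :
    good (x 5) (x 6) (x 9) = true := by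
  have ht' : ∀ a b c : Fin N, P c = (P b)⁻¹ * P a * P b → (c : ℕ) = t a b := by
    intro a b c h
    have h1 := hinj _ _ (h.trans (ht a b).2.symm)
    rw [h1]
    exact Nat.mod_eq_of_lt (ht a b).1
  have hu' : ∀ a b c : Fin N, P c = P b * P a * (P b)⁻¹ → (c : ℕ) = u a b := by
    intro a b c h
    have h1 := hinj _ _ (h.trans (hu a b).2.symm)
    rw [h1]
    exact Nat.mod_eq_of_lt (hu a b).1
  refine search_spec hs (fun j => (x j : ℕ)) (fun j => (x j).2) (by rw [h0]; rfl)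
    (hu' _ _ _ ?_) (ht' _ _ _ ?_) (hu' _ _ _ ?_) (hu' _ _ _ ?_) (ht' _ _ _ ?_) (hu' _ _ _ ?_)
    (ht' _ _ _ ?_) (ht' _ _ _ ?_) (hu' _ _ _ ?_) (hu' _ _ _ ?_) (ht' _ _ _ ?_) (ht' _ _ _ ?_)
    (hu' _ _ _ ?_)
  all_goals rw [hx, hx, hx]
  · exact hv.r0
  · exact hv.r1
  · exact hv.r2
  · exact hv.r3
  · exact hv.r4
  · exact hv.r5
  · exact hv.r6
  · exact hv.r7
  · rw [hv.r8]; group
  · exact hv.r9
  · exact hv.r10
  · exact hv.r11
  · exact hv.r12

/-! ### The class number 4 -/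

def tt4 : ℕ := 0xee8ca9b3afc312a008810933259e8e41db27537c5a24d1844511794964eb661f5525267d593823746e78ddb90b9a74fb442420440525938d8d67eb1369e9b85fb3ae8ca28823288eb85db25d21ccca7551bb118064016f0cb77432a367d5eaed99800ca0191ae42f97b474fc4d6875217bba4d5a2f43a32d20402101269e1fa66146d3ca020c83ad92ac33569e12676db25a1db59f2db32af5262aae9935e5d487040008246e50be4186d563d3f1d496737a6d070146420e3d3270cced07bc13a8da78094451866cec755870e8db825184a2722fc6c9ec4abb6a3b90cc9fa4abb1ac66c328a208c238bcc9c4d07a6db9cca9b42c6401405dc32d3a1d059f32d55469b3559e12a449dbe5f11d3cc94f5f56608328005e5e593a250a38eb561f5b76ebdba4d1844518713b7546d6126b4444204023ee176e64ddbb97edaba3248210024a4967e42a6ec66cabf0cedb74bf1674d598edb2ee416710c2328968bf1dbb470cae9c7cca1c0800220715b754932aba8f6f0dba599bed14997b6cafc290a020fb64aaaf93790a6c010904079a788db72bf168dd0e8bc2afec678a36f041c85190a0569938f61c750eb9b34fb744328861d33b151a88cb6f07ea3649a8ecb6fc8a7137ead33274f91f90a38eb9661c288a0204f76e774626dd7d60d3a374526dd6602411464e64eba3a0b965d4362367eb13326d118464009abe5ddb37593ae99151b55e5d0b934830084554e3dd565742f6e471b276e3d64cca0148108f1d526af46617a6ecac32af6e61741c4008ca0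
def uu4 : ℕ := 0xe83015d3a23132ed3d8a91d219918a6d10e91c7c165eadd172627812a31511e4b695f34b2a6e4f6f20a09de820435d4205166c72b659519a5bda682534df528ac7de84381b0a9de123b6eb98d44ced6080ef4a54dc837a0c96518d4cfb280d2af587bba8b4d4305a2f1f197c11d75c288b90e29bee19013a7510d363225810d53d9a362ba4e1ab2d8937201650f72c24861b16d764fb8aeb4006d9ab84462b4f0099057133441bc5e4f976c6465f5400cdca54a492227ee4cc8e13d48625eeb2540a75deac764663b86183ba1b471cfbab990b069a48a8e05d06f4b6149317f55a2c429a36af999198886c3ec3834d43a2f28dcb6ec9d531c00bd3090696a63e4122a26ad2715c27552811d73c85945fb180cce62e992387cdd577b84392e9b18618ab825b48ed5f6c6c2bb311c97df35b4c257c10266b80db6622aa7a6d5a955c71d2185dad852381ece4c2c242e7daf94c8b83bb9236057baba1847165e8ac7c6ad564438076b175736374e01495a22a09e0779bc9d0595a04d664b17af7ee51b2ae448cdce6e54835fb9f0f704837dc026c12888ac4805bb8ace2f2287371e9abb20b69490e50b1474e0d76767b354eb629120b97986c88b5655c7009b3ca5daeb48d094227c70fc4cd335e7547bb4f284a400990b22cc3b5a7562e9ee53d7ef74a544408ca481a5635b983c711caf2b9a5cfa69d418860204cc619126c78ae357d9deebae9d5de80520843921126195c8b62a9dd7decf6ed6eae20c010951683208c295869fb9ba737a56af7ec2011460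
def ee4 : ℕ := 0x84e16144198d03194226440547084c285a80b3107110c331405a62142328b8142c26142988444cc4190e23034517034602a30a16198818d0
def ff4 : ℕ := 0x15186620a16232844c871121390169066310a61430344b0a42135016d031310c41931065c0994242c24c89110ca8c18d045c0cc4142c3460

def t4 (a b : ℕ) : ℕ := Nat.mod (Nat.shiftRight tt4 (Nat.mul 5 (Nat.add (Nat.mul 30 a) b))) 32
def u4 (a b : ℕ) : ℕ := Nat.mod (Nat.shiftRight uu4 (Nat.mul 5 (Nat.add (Nat.mul 30 a) b))) 32
def e4 (a i : ℕ) : ℕ := Nat.mod (Nat.shiftRight ee4 (Nat.mul 3 (Nat.add (Nat.mul 5 a) i))) 8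
def f4 (a i : ℕ) : ℕ := Nat.mod (Nat.shiftRight ff4 (Nat.mul 3 (Nat.add (Nat.mul 5 a) i))) 8

theorem inv4 : ∀ a : Fin 30, ∀ i : Fin 5,
    Fin.ofNat 5 (f4 a (Fin.ofNat 5 (e4 a i) : Fin 5)) = i ∧
    Fin.ofNat 5 (e4 a (Fin.ofNat 5 (f4 a i) : Fin 5)) = i := by decide +kernel

/-- The elements of the class. -/
def P4 (a : Fin 30) : S5 where
  toFun i := Fin.ofNat 5 (e4 a i)
  invFun i := Fin.ofNat 5 (f4 a i)
  left_inv i := (inv4 a i).1
  right_inv i := (inv4 a i).2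

theorem inj4 : ∀ a b : Fin 30, P4 a = P4 b → a = b := by decide +kernel

theorem tab4t : ∀ a b : Fin 30, t4 a b < 30 ∧
    P4 (Fin.ofNat 30 (t4 a b)) = (P4 b)⁻¹ * P4 a * P4 b := by decide +kernel

theorem tab4u : ∀ a b : Fin 30, u4 a b < 30 ∧
    P4 (Fin.ofNat 30 (u4 a b)) = P4 b * P4 a * (P4 b)⁻¹ := by decide +kernel

theorem conj4 : ∀ a : Fin 30, ∃ g : S5, g * P4 a * g⁻¹ = P4 0 := by decide +kernel

/-! ### The class number 6 -/

def tt6 : ℕ := 0x9a26c049641424b53ce923e075c8835227343145924660c62689a2e09e0f2acf01924d79172208f02a8ad80a2e744cc981933b5697c5c10c5130026f6a4436c0625b8ce885ea6c1233a92b339c68c1a323da7794804310c4ad458310c980834adaa90db07964b10c495966c64d0e885d164c00626503a821339d251c82431889ad2a79132209e1338ce10d32395f24b5889a0022aced81dea19a31338623b54804e682a9a7908876a5c68982514249084d1300086220d5c8b0594649260d24d8004cd1086244b4aa74421734eb90c00431871c9e500113404267196981c4b8094f190af4bd421c8442a9717182153c446906551caf10e1362000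
def uu6 : ℕ := 0x9aa62492526116f42de081cf02496834d48186699162a60cd188e256bce773e04340815ca4b3b8906362a84cb11380511a6c580e1785114b5c06cd2f8cc621b5b11b9ee11cd08294b0a56973cc400db0321a571d9179188525335308c2c90b58c700360d931eb726635c4532b0222a22e019879402902a4e984ec538446110f0a92b41922649d323dc64cc4914985915e81a167681a779e06444665022d38a63729136c4ad29dc23888651a124853232c2c822008ac120b4a64148380640200d36a5814c5a49c5450a1d23ac0d08cec8824e1b0af4400e599619c02702448309ea294638884f7b94a210c992c211094a994a4230637bd0d3c000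
def ee6 : ℕ := 0x8b8887016a30542988818ca11911310a68c0c871322206346069c2104e14232e045a80a8c1
def ff6 : ℕ := 0x5a80c6822e085309c2444c871206360a88464a11981a4438c889c0894c44606e109460b501

def t6 (a b : ℕ) : ℕ := Nat.mod (Nat.shiftRight tt6 (Nat.mul 5 (Nat.add (Nat.mul 20 a) b))) 32
def u6 (a b : ℕ) : ℕ := Nat.mod (Nat.shiftRight uu6 (Nat.mul 5 (Nat.add (Nat.mul 20 a) b))) 32
def e6 (a i : ℕ) : ℕ := Nat.mod (Nat.shiftRight ee6 (Nat.mul 3 (Nat.add (Nat.mul 5 a) i))) 8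
def f6 (a i : ℕ) : ℕ := Nat.mod (Nat.shiftRight ff6 (Nat.mul 3 (Nat.add (Nat.mul 5 a) i))) 8

theorem inv6 : ∀ a : Fin 20, ∀ i : Fin 5,
    Fin.ofNat 5 (f6 a (Fin.ofNat 5 (e6 a i) : Fin 5)) = i ∧
    Fin.ofNat 5 (e6 a (Fin.ofNat 5 (f6 a i) : Fin 5)) = i := by decide +kernel

/-- The elements of the class. -/
def P6 (a : Fin 20) : S5 where
  toFun i := Fin.ofNat 5 (e6 a i)
  invFun i := Fin.ofNat 5 (f6 a i)
  left_inv i := (inv6 a i).1
  right_inv i := (inv6 a i).2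

theorem inj6 : ∀ a b : Fin 20, P6 a = P6 b → a = b := by decide +kernel

theorem tab6t : ∀ a b : Fin 20, t6 a b < 20 ∧
    P6 (Fin.ofNat 20 (t6 a b)) = (P6 b)⁻¹ * P6 a * P6 b := by decide +kernel

theorem tab6u : ∀ a b : Fin 20, u6 a b < 20 ∧
    P6 (Fin.ofNat 20 (u6 a b)) = P6 b * P6 a * (P6 b)⁻¹ := by decide +kernel

theorem conj6 : ∀ a : Fin 20, ∃ g : S5, g * P6 a * g⁻¹ = P6 0 := by decide +kernel

theorem all4 : ∀ x : S5, x ^ 4 = 1 → x ^ 2 ≠ 1 → ∃ a : Fin 30, P4 a = x := by decide +kernel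

theorem all6 : ∀ x : S5, Equiv.Perm.sign x = -1 → x ^ 4 ≠ 1 → ∃ a : Fin 20, P6 a = x := by
  decide +kernel

def good6 (a b c : ℕ) : Bool := and (Nat.beq a 0) (and (Nat.beq b 0) (Nat.beq c 0))

def good4 (a b c : ℕ) : Bool :=
  or (and (Nat.beq a 0) (and (Nat.beq b 0) (Nat.beq c 0)))
    (or (and (Nat.beq a 1) (and (Nat.beq b 11) (Nat.beq c 12)))
    (or (and (Nat.beq a 2) (and (Nat.beq b 18) (Nat.beq c 29)))
    (or (and (Nat.beq a 3) (and (Nat.beq b 26) (Nat.beq c 7)))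
    ((and (Nat.beq a 5) (and (Nat.beq b 17) (Nat.beq c 20)))))))

theorem search6 : search 20 t6 u6 good6 = true := by decide +kernel

theorem search4 : search 30 t4 u4 good4 = true := by decide +kernel

/-! ### The longitude -/

theorem period0 : Function.minimalPeriod knot13.next arc0 = 13 := by
  have h13 : Fact (Nat.Prime 13) := ⟨by norm_num⟩
  apply Function.minimalPeriod_eq_prime
  · exact (by decide +kernel : nx^[13] 0 = 0)
  · exact (by decide +kernel : ¬ nx 0 = 0)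

theorem walk0 : knot13.walk arc0 = ([0, 1, 2, 3, 4, 5, 6, 7, 8, 9, 10, 11, 12] : List (Fin 13)) := by
  unfold Diagram.walk
  rw [period0]
  rfl

theorem writhe0 : knot13.selfWrithe arc0 = 1 := by
  unfold Diagram.selfWrithe
  rw [walk0]
  have h2 : (fun b : Fin knot13.n => @decide (knot13.SameComponent arc0 (knot13.above b))
      (Classical.propDecidable _)) = fun _ => true := by
    funext b
    simp only [decide_eq_true_eq]
    exact isKnot _ _
  erw [h2]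
  rfl

theorem lonVal0 {G : Type} [Group G] (v : Fin 13 → G) :
    @Diagram.lonVal knot13 G _ v arc0 = (([0, 1, 2, 3, 4, 5, 6, 7, 8, 9, 10, 11, 12] :
      List (Fin 13)).map fun b => v (knot13.above b) ^ (knot13.sgn b : ℤ)).prod *
        v arc0 ^ (-(1 : ℤ)) :=
  lonVal_eq (D := knot13) v arc0 _ _ _ walk0 writhe0 rfl

/-- The colouring by 4-cycles. -/
def base (j : Fin 13) : S5 := P4 (![0, 3, 24, 8, 8, 1, 11, 28, 28, 12, 28, 28, 15] j)

theorem base_col : knot13.IsCol (base : Fin knot13.n → S5) := by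
  have h : ∀ a : Fin 13, base (knot13.next a) = base (knot13.above a) ^ (-(knot13.sgn a : ℤ)) *
      base a * base (knot13.above a) ^ (knot13.sgn a : ℤ) := by decide +kernel
  exact h

theorem base_lon : @Diagram.lonVal knot13 S5 _ base arc0 = base arc0 ^ 2 := by
  have h : (([0, 1, 2, 3, 4, 5, 6, 7, 8, 9, 10, 11, 12] :
      List (Fin 13)).map fun b => base (knot13.above b) ^ (knot13.sgn b : ℤ)).prod *
        base arc0 ^ (-(1 : ℤ)) = base arc0 ^ 2 := by decide +kernel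
  exact (lonVal0 base).trans h

/-! ### Conclusion -/

theorem conj_col {ρ : Fin knot13.n → S5} (h : knot13.IsCol ρ) (y : S5) :
    knot13.IsCol (fun a => y * ρ a * y⁻¹) :=
  Diagram.IsCol.map knot13 h (MulAut.conj y).toMonoidHom

theorem conj_lon (ρ : Fin knot13.n → S5) (y : S5) :
    knot13.lonVal (fun a => y * ρ a * y⁻¹) arc0 = y * knot13.lonVal ρ arc0 * y⁻¹ :=
  knot13.lonVal_map ρ (MulAut.conj y).toMonoidHom arc0

theorem rels_const {G : Type} [Group G] (x : G) : Rels (fun _ => x) := by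
  constructor <;> group

theorem classify {ρ : Fin knot13.n → S5} (hc : knot13.IsCol ρ)
    (h4 : ρ arc0 ^ 4 = 1 ∧ ρ arc0 ^ 2 ≠ 1) (hl : knot13.lonVal ρ arc0 = ρ arc0 ^ 2) :
    ∃ g : S5, ρ = fun j => g * base j * g⁻¹ := by
  have hQ : ∀ x y : S5, (x ^ 4 = 1 ∧ x ^ 2 ≠ 1) → ((y * x * y⁻¹) ^ 4 = 1 ∧ (y * x * y⁻¹) ^ 2 ≠ 1) := by
    intro x y hx
    rw [conj_pow, conj_pow]
    refine ⟨by rw [hx.1]; group, fun h2 => hx.2 ?_⟩
    have : x ^ 2 = y⁻¹ * (y * x ^ 2 * y⁻¹) * y := by group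
    rw [this, h2]; group
  obtain ⟨a, ha⟩ := all4 _ h4.1 h4.2
  obtain ⟨g, hg⟩ := conj4 a
  obtain ⟨v, hv⟩ : ∃ v : Fin knot13.n → S5, v = fun j => g * ρ j * g⁻¹ := ⟨_, rfl⟩
  have hvc : knot13.IsCol v := by rw [hv]; exact conj_col hc g
  have hv0 : v arc0 = P4 0 := by
    rw [hv]
    show g * ρ arc0 * g⁻¹ = P4 0
    rw [← ha, hg]
  have hvl : knot13.lonVal v arc0 = v arc0 ^ 2 := by
    rw [hv, conj_lon, hl, conj_pow]
  have hv4 : v arc0 ^ 4 = 1 ∧ v arc0 ^ 2 ≠ 1 := by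
    rw [hv]
    exact hQ _ _ h4
  have hall := all_of_conj hQ hvc hv4
  have hcode : ∀ j : Fin 13, ∃ a : Fin 30, P4 a = v j := fun j => all4 _ (hall j).1 (hall j).2
  choose y hy using hcode
  have hy0 : y 0 = 0 := inj4 _ _ ((hy 0).trans hv0)
  have hvr : Rels (G := S5) v := rels hvc
  have hgood := coded P4 t4 u4 inj4 tab4t tab4u good4 search4 v hvr y hy hy0
  have hk : ∀ k : ℕ, y 5 = y 5 → (P4 (y 5) = P4 0 ^ k * base 5 * (P4 0 ^ k)⁻¹) →
      (P4 (y 6) = P4 0 ^ k * base 6 * (P4 0 ^ k)⁻¹) →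
      (P4 (y 9) = P4 0 ^ k * base 9 * (P4 0 ^ k)⁻¹) → ∃ g : S5, ρ = fun j => g * base j * g⁻¹ := by
    intro k _ h5 h6 h9
    have hb : Rels (fun j => P4 0 ^ k * base j * (P4 0 ^ k)⁻¹) := rels (conj_col base_col _)
    have hve : (v : Fin 13 → S5) = fun j => P4 0 ^ k * base j * (P4 0 ^ k)⁻¹ := by
      refine rels_ext hvr hb ?_ ?_ ?_ ?_
      · rw [← hy 0, hy0]
        have : base 0 = P4 0 := rfl
        rw [this]
        group
      · rw [← hy 5, h5]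
      · rw [← hy 6, h6]
      · rw [← hy 9, h9]
    refine ⟨g⁻¹ * P4 0 ^ k, ?_⟩
    funext j
    have h1 : v j = g * ρ j * g⁻¹ := by rw [hv]
    have h2 : v j = P4 0 ^ k * base j * (P4 0 ^ k)⁻¹ := congrFun hve j
    have h3 : ρ j = g⁻¹ * v j * g := by rw [h1]; group
    rw [h3, h2]
    group
  have hcases : ((y 5 : ℕ) = 0 ∧ (y 6 : ℕ) = 0 ∧ (y 9 : ℕ) = 0) ∨
      ((y 5 : ℕ) = 1 ∧ (y 6 : ℕ) = 11 ∧ (y 9 : ℕ) = 12) ∨
      ((y 5 : ℕ) = 2 ∧ (y 6 : ℕ) = 18 ∧ (y 9 : ℕ) = 29) ∨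
      ((y 5 : ℕ) = 3 ∧ (y 6 : ℕ) = 26 ∧ (y 9 : ℕ) = 7) ∨
      ((y 5 : ℕ) = 5 ∧ (y 6 : ℕ) = 17 ∧ (y 9 : ℕ) = 20) := by
    unfold good4 at hgood
    simp only [Bool.or_eq_true, Bool.and_eq_true, Nat.beq_eq] at hgood
    exact hgood
  rcases hcases with h | h | h | h | h
  · exfalso
    have e5 : y 5 = 0 := Fin.ext h.1
    have e6 : y 6 = 0 := Fin.ext h.2.1
    have e9 : y 9 = 0 := Fin.ext h.2.2
    have hve : (v : Fin 13 → S5) = fun _ => P4 0 := by
      refine rels_ext hvr (rels_const _) ?_ ?_ ?_ ?_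
      · rw [← hy 0, hy0]
      · rw [← hy 5, e5]
      · rw [← hy 6, e6]
      · rw [← hy 9, e9]
    have h1 : knot13.lonVal v arc0 = 1 := by
      rw [show v = fun _ => P4 0 from hve]
      exact knot13.lonVal_const isKnot _ _
    exact hv4.2 (hvl.symm.trans h1)
  · have e5 : y 5 = 1 := Fin.ext h.1
    have e6 : y 6 = 11 := Fin.ext h.2.1
    have e9 : y 9 = 12 := Fin.ext h.2.2
    exact hk 0 rfl (by rw [e5]; decide +kernel) (by rw [e6]; decide +kernel)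
      (by rw [e9]; decide +kernel)
  · have e5 : y 5 = 2 := Fin.ext h.1
    have e6 : y 6 = 18 := Fin.ext h.2.1
    have e9 : y 9 = 29 := Fin.ext h.2.2
    exact hk 2 rfl (by rw [e5]; decide +kernel) (by rw [e6]; decide +kernel)
      (by rw [e9]; decide +kernel)
  · have e5 : y 5 = 3 := Fin.ext h.1
    have e6 : y 6 = 26 := Fin.ext h.2.1
    have e9 : y 9 = 7 := Fin.ext h.2.2
    exact hk 3 rfl (by rw [e5]; decide +kernel) (by rw [e6]; decide +kernel)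
      (by rw [e9]; decide +kernel)
  · have e5 : y 5 = 5 := Fin.ext h.1
    have e6 : y 6 = 17 := Fin.ext h.2.1
    have e9 : y 9 = 20 := Fin.ext h.2.2
    exact hk 1 rfl (by rw [e5]; decide +kernel) (by rw [e6]; decide +kernel)
      (by rw [e9]; decide +kernel)

theorem six {ρ : Fin knot13.n → S5} (hc : knot13.IsCol ρ) (hs : Equiv.Perm.sign (ρ arc0) = -1)
    (h4 : ρ arc0 ^ 4 ≠ 1) : knot13.lonVal ρ arc0 = 1 := by
  have hQ : ∀ x y : S5, (Equiv.Perm.sign x = -1 ∧ x ^ 4 ≠ 1) →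
      (Equiv.Perm.sign (y * x * y⁻¹) = -1 ∧ (y * x * y⁻¹) ^ 4 ≠ 1) := by
    intro x y hx
    rw [conj_pow]
    refine ⟨?_, fun h2 => hx.2 ?_⟩
    · rw [map_mul, map_mul, map_inv, mul_comm (Equiv.Perm.sign y), mul_inv_cancel_right, hx.1]
    · have : x ^ 4 = y⁻¹ * (y * x ^ 4 * y⁻¹) * y := by group
      rw [this, h2]; group
  obtain ⟨a, ha⟩ := all6 _ hs h4
  obtain ⟨g, hg⟩ := conj6 a
  obtain ⟨v, hv⟩ : ∃ v : Fin knot13.n → S5, v = fun j => g * ρ j * g⁻¹ := ⟨_, rfl⟩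
  have hvc : knot13.IsCol v := by rw [hv]; exact conj_col hc g
  have hv0 : v arc0 = P6 0 := by
    rw [hv]
    show g * ρ arc0 * g⁻¹ = P6 0
    rw [← ha, hg]
  have hv4 : Equiv.Perm.sign (v arc0) = -1 ∧ v arc0 ^ 4 ≠ 1 := by
    rw [hv]
    exact hQ _ _ ⟨hs, h4⟩
  have hall := all_of_conj hQ hvc hv4
  have hcode : ∀ j : Fin 13, ∃ a : Fin 20, P6 a = v j := fun j => all6 _ (hall j).1 (hall j).2
  choose y hy using hcode
  have hy0 : y 0 = 0 := inj6 _ _ ((hy 0).trans hv0)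
  have hvr : Rels (G := S5) v := rels hvc
  have hgood := coded P6 t6 u6 inj6 tab6t tab6u good6 search6 v hvr y hy hy0
  unfold good6 at hgood
  simp only [Bool.and_eq_true, Nat.beq_eq] at hgood
  have e5 : y 5 = 0 := Fin.ext hgood.1
  have e6 : y 6 = 0 := Fin.ext hgood.2.1
  have e9 : y 9 = 0 := Fin.ext hgood.2.2
  have hve : (v : Fin 13 → S5) = fun _ => P6 0 := by
    refine rels_ext hvr (rels_const _) ?_ ?_ ?_ ?_
    · rw [← hy 0, hy0]
    · rw [← hy 5, e5]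
    · rw [← hy 6, e6]
    · rw [← hy 9, e9]
  have h1 : knot13.lonVal v arc0 = 1 := by
    rw [show v = fun _ => P6 0 from hve]
    exact knot13.lonVal_const isKnot _ _
  rw [hv, conj_lon] at h1
  have h2 : knot13.lonVal ρ arc0 = g⁻¹ * (g * knot13.lonVal ρ arc0 * g⁻¹) * g := by group
  rw [h2, h1]
  group

theorem ex : SpecEx := by
  refine ⟨isKnot, fun hd => ?_, fun ρ hρ hs h4 => ?_⟩
  · have hsub : Reps 5 knot13 arc0 ⊆ Set.range (fun (g : S5) (j : Fin knot13.n) => g * base j * g⁻¹) := by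
      intro ρ hρ
      obtain ⟨g, hg⟩ := classify ((isHom_iff _ _).1 hρ.1) hρ.2.1 ((lon_eq _ _ _).symm.trans hρ.2.2)
      exact ⟨g, hg.symm⟩
    have hfin : (Set.range (fun (g : S5) (j : Fin knot13.n) => g * base j * g⁻¹)).Finite :=
      Set.finite_range _
    have hne : (Reps 5 knot13 arc0).Nonempty := by
      refine ⟨base, (isHom_iff _ _).2 base_col, ?_, (lon_eq _ _ _).trans base_lon⟩
      exact ⟨(by decide +kernel : P4 0 ^ 4 = 1), (by decide +kernel : P4 0 ^ 2 ≠ 1)⟩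
    have h1 : Nat.card (Reps 5 knot13 arc0) ≤ 120 := by
      rw [Nat.card_coe_set_eq]
      refine (Set.ncard_le_ncard hsub hfin).trans ?_
      rw [← Set.image_univ]
      refine (Set.ncard_image_le (Set.toFinite _)).trans ?_
      rw [Set.ncard_univ, Nat.card_eq_fintype_card, Fintype.card_perm, Fintype.card_fin]
      decide
    have h2 : 0 < Nat.card (Reps 5 knot13 arc0) := by
      rw [Nat.card_coe_set_eq]
      exact (Set.ncard_pos (hfin.subset hsub)).2 hne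
    have := Nat.le_of_dvd h2 hd
    omega
  · have h1 : lon knot13 ρ arc0 = 1 := (lon_eq _ _ _).trans (six ((isHom_iff _ _).1 hρ) hs h4)
    rw [h1]
    have h2 : ρ arc0 ^ 2 ≠ 1 := fun h => h4 (by
      rw [show (4 : ℕ) = 2 * 2 from rfl, pow_mul, h, one_pow])
    exact ⟨fun h => h2 h.symm, fun h => h2 (inv_eq_one.1 h.symm)⟩

end Vale.Agent.P258.R2.H891.Ex
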